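import Crest.Agent.X212.Wz78.Int

-- ▼ part X212/Kah60/Alg
section

/-! Pointwise algebra of pure spinors for an almost Hermitian structure in a spanning frame. -/

open scoped InnerProductSpace
open Finset

set_option linter.unusedSectionVars false

noncomputable section
namespace Crest.Agent.X212.Kah60
open Wz78

variable {ι : Type*} [Fintype ι] {V : Type*} [NormedAddCommGroup V] [InnerProductSpace ℝ V]

/-- The matrix of an orthogonal complex structure on the range of `P`. -/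
structure KP (P ω : ι → ι → ℝ) : Prop extends Pr P where
  skew : ∀ a b, ω a b = -ω b a
  sq : ∀ a b, ∑ k, ω a k * ω k b = -P a b
  proj : ∀ a b, ∑ k, P a k * ω k b = ω a b

/-- A complex Clifford module with a Hermitian inner product. -/
structure CI (P : ι → ι → ℝ) (p i : V →L[ℝ] V) (ρ : ι → V →L[ℝ] V) : Prop extends Cl P p ρ where
  sρ : ∀ a, Skew (ρ a)
  si : Skew i
  comm : ∀ a v, i (ρ a v) = ρ a (i v)
  ii : ∀ v, p v = v → i (i v) = -v
  pi : ∀ v, p v = v → p (i v) = i v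
  le : ∀ v, ‖i v‖ ≤ ‖v‖

/-- `ξ (J v) = i ξ v`. -/
def Hol (ω : ι → ι → ℝ) (i : V →L[ℝ] V) (ξ : ι → V) : Prop := ∀ a, ∑ b, ω a b • ξ b = i (ξ a)

/-- Pure spinors: `ρ (J v) u = i ρ v u`. -/
def Pure (ω : ι → ι → ℝ) (ρ : ι → V →L[ℝ] V) (p i : V →L[ℝ] V) (u : V) : Prop :=
  p u = u ∧ Hol ω i fun a => ρ a u

variable {P ω : ι → ι → ℝ} {p i : V →L[ℝ] V} {ρ : ι → V →L[ℝ] V} {u v : V} {ξ : ι → V}

theorem KP.neg (h : KP P ω) : KP P fun a b => -ω a b where
  toPr := h.toPr
  skew a b := by rw [h.skew a b]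
  sq a b := by simp only [neg_mul_neg, h.sq]
  proj a b := by simp only [mul_neg, sum_neg_distrib, h.proj]

theorem KP.proj' (h : KP P ω) (a b : ι) : ∑ k, ω a k * P k b = ω a b := by
  rw [h.skew a b, ← h.proj b a, ← sum_neg_distrib]
  exact sum_congr rfl fun k _ => by rw [h.skew a k, h.symm k b]; ring

theorem KP.sq' (h : KP P ω) (b c : ι) : ∑ a, ω a b * ω a c = P b c := by
  rw [← neg_neg (P b c), ← h.sq, ← sum_neg_distrib]
  exact sum_congr rfl fun a _ => by rw [h.skew a b]; ring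

/-- `ω` is an isometry on projected vectors. -/
theorem KP.iso (h : KP P ω) (r s : ι → ℝ) (hr : ∀ a, ∑ b, P a b * r b = r a) :
    ∑ a, (∑ b, ω a b * s b) * (∑ b, ω a b * r b) = ∑ a, s a * r a := by
  calc _ = ∑ b, ∑ c, (∑ a, ω a b * ω a c) * (s b * r c) := by
        simp only [sum_mul_sum]
        simp only [sum_mul]
        rw [sum_comm]
        refine sum_congr rfl fun b _ => ?_
        rw [sum_comm]
        exact sum_congr rfl fun c _ => sum_congr rfl fun a _ => by ring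
    _ = _ := sum_congr rfl fun b _ => by
        rw [← hr b, mul_sum]
        exact sum_congr rfl fun c _ => by rw [h.sq']; ring

theorem CI.neg (h : CI P p i ρ) : CI P p (-i) ρ where
  toCl := h.toCl
  sρ := h.sρ
  si v w := by simp only [neg_apply, inner_neg_left, inner_neg_right, h.si v w]
  comm a v := by simp only [neg_apply, h.comm, map_neg]
  ii v hv := by simp only [neg_apply, map_neg, neg_neg, h.ii v hv]
  pi v hv := by simp only [neg_apply, map_neg, h.pi v hv]
  le v := by simpa using h.le v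

theorem Hol.neg (h : Hol ω i ξ) : Hol (fun a b => -ω a b) (-i) ξ := fun a => by
  simp only [neg_smul, sum_neg_distrib, h a, neg_apply]

theorem Pure.eq (hu : Pure ω ρ p i u) (a : ι) : ∑ b, ω a b • ρ b u = i (ρ a u) := hu.2 a

theorem Pure.zero : Pure ω ρ p i 0 := ⟨map_zero _, fun a => by simp⟩

theorem Pure.add (hu : Pure ω ρ p i u) (hv : Pure ω ρ p i v) : Pure ω ρ p i (u + v) :=
  ⟨by rw [map_add, hu.1, hv.1], fun a => by
    simp only [map_add, smul_add, sum_add_distrib, hu.2 a, hv.2 a]⟩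

theorem Pure.smul (r : ℝ) (hu : Pure ω ρ p i u) : Pure ω ρ p i (r • u) :=
  ⟨by rw [map_smul, hu.1], fun a => by
    simp only [map_smul, smul_comm _ r, ← smul_sum, hu.2 a]⟩

theorem Pure.neg (hu : Pure ω ρ p i u) : Pure ω ρ p i (-u) := by
  simpa using hu.smul (-1)

theorem Pure.sub (hu : Pure ω ρ p i u) (hv : Pure ω ρ p i v) : Pure ω ρ p i (u - v) := by
  rw [sub_eq_add_neg]; exact hu.add hv.neg

theorem Pure.sum {κ : Type*} (s : Finset κ) {u : κ → V} (hu : ∀ k ∈ s, Pure ω ρ p i (u k)) :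
    Pure ω ρ p i (∑ k ∈ s, u k) :=
  Finset.sum_induction u _ (fun _ _ => Pure.add) Pure.zero hu

/-- Operators commuting with `p`, `ρ`, `i` up to a sign keep pure spinors pure. -/
theorem Pure.map (hu : Pure ω ρ p i u) {T i' : V →L[ℝ] V} (hp : p (T u) = T u)
    (hρ : ∀ a, ρ a (T u) = T (ρ a u)) (hi : ∀ a, T (i (ρ a u)) = i' (T (ρ a u))) :
    Pure ω ρ p i' (T u) :=
  ⟨hp, fun a => by simp only [hρ, ← map_smul T, ← map_sum T, hu.eq a, hi]⟩

theorem CI.pρ (h : CI P p i ρ) (a : ι) (v : V) : p (ρ a v) = ρ a v :=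
  congrArg (fun T : V →L[ℝ] V => T v) (h.pl a)

theorem CI.pure_i (h : CI P p i ρ) (hu : Pure ω ρ p i u) : Pure ω ρ p i (i u) :=
  hu.map (h.pi u hu.1) (fun a => (h.comm a u).symm) fun _ => rfl

theorem CI.pure_i' (h : CI P p i ρ) (hu : Pure ω ρ p (-i) u) : Pure ω ρ p (-i) (i u) := by
  simpa using (h.neg.pure_i hu).neg

theorem CI.anti (h : CI P p i ρ) (a b : ι) (hv : p v = v) (u : V) :
    ⟪ρ a u, ρ b v⟫_ℝ + ⟪ρ b u, ρ a v⟫_ℝ = 2 * P a b * ⟪u, v⟫_ℝ := by
  have := congrArg (fun T : V →L[ℝ] V => ⟪u, T v⟫_ℝ) (h.rel a b)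
  simp only [add_apply, mul_apply_eq_comp, inner_add_right,
    smul_apply, hv, real_inner_smul_right] at this
  rw [h.sρ a, h.sρ b]; linarith

theorem CI.projρ (h : CI P p i ρ) (a : ι) (v : V) : ∑ b, P a b • ρ b v = ρ a v := by
  rw [← h.proj a, _root_.sum_apply]; rfl

/-- Compression of `ρ a * ρ b` to the pure spinors. -/
theorem CI.compress (h : CI P p i ρ) (k : KP P ω) (hu : Pure ω ρ p i u) (hv : Pure ω ρ p i v)
    (a b : ι) : ⟪ρ a u, ρ b v⟫_ℝ = P a b * ⟪u, v⟫_ℝ - ω a b * ⟪i u, v⟫_ℝ := by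
  have h1 := h.anti a b hv.1 u
  have h2 : ⟪ρ a u, ρ b v⟫_ℝ - ⟪ρ b u, ρ a v⟫_ℝ = -2 * ω a b * ⟪i u, v⟫_ℝ := by
    have e1 : ∑ k, ω a k * ⟪ρ k (i u), ρ b v⟫_ℝ = -⟪ρ a u, ρ b v⟫_ℝ := by
      simp only [← real_inner_smul_left, ← sum_inner]
      rw [(h.pure_i hu).eq a, ← h.comm, h.ii _ (h.pρ a u), inner_neg_left]
    have e2 : ∑ k, ω a k * ⟪ρ b (i u), ρ k v⟫_ℝ = ⟪ρ b u, ρ a v⟫_ℝ := by
      simp only [← real_inner_smul_right, ← inner_sum]
      rw [hv.eq a, ← h.comm, h.si, h.ii _ (h.pρ a v), inner_neg_right, neg_neg]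
    have e3 : ∑ k, ω a k * (2 * P k b * ⟪i u, v⟫_ℝ) = 2 * ω a b * ⟪i u, v⟫_ℝ := by
      rw [← k.proj' a b, mul_sum, sum_mul]
      exact sum_congr rfl fun _ _ => by ring
    simp only [← h.anti _ b hv.1 (i u), mul_add, sum_add_distrib, e1, e2] at e3
    linarith
  linarith

/-- Pure spinors of opposite types are orthogonal. -/
theorem CI.orth (h : CI P p i ρ) (k : KP P ω) (hP : ∑ a, P a a ≠ 0) (hu : Pure ω ρ p i u)
    (hv : Pure ω ρ p (-i) v) : ⟪u, v⟫_ℝ = 0 := by
  have e0 : ∑ a, ⟪ρ a u, ρ a v⟫_ℝ = (∑ a, P a a) * ⟪u, v⟫_ℝ := by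
    rw [sum_mul]
    exact sum_congr rfl fun a _ => by have := h.anti a a hv.1 u; linarith
  have e1 : ∑ a, ⟪∑ b, ω a b • ρ b u, ∑ b, ω a b • ρ b v⟫_ℝ = -∑ a, ⟪ρ a u, ρ a v⟫_ℝ := by
    rw [← sum_neg_distrib]
    refine sum_congr rfl fun a _ => ?_
    rw [hu.eq a, hv.eq a, h.si, neg_apply, map_neg, h.ii _ (h.pρ a v), neg_neg]
  have e2 : ∑ a, ⟪∑ b, ω a b • ρ b u, ∑ b, ω a b • ρ b v⟫_ℝ = ∑ a, ⟪ρ a u, ρ a v⟫_ℝ := by
    calc _ = ∑ b, ∑ c, (∑ a, ω a b * ω a c) * ⟪ρ b u, ρ c v⟫_ℝ := by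
          simp only [sum_inner, real_inner_smul_left]
          simp only [inner_sum, real_inner_smul_right, sum_mul, mul_sum]
          rw [sum_comm]
          refine sum_congr rfl fun b _ => ?_
          rw [sum_comm]
          exact sum_congr rfl fun c _ => sum_congr rfl fun a _ => by ring
      _ = _ := sum_congr rfl fun b _ => by
          simp only [k.sq', ← real_inner_smul_right, ← inner_sum, h.projρ]
  have : (∑ a, P a a) * ⟪u, v⟫_ℝ = 0 := by linarith
  exact (mul_eq_zero.1 this).resolve_left hP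

/-- A pure valued one-form in the kernel of Clifford multiplication is complex linear. -/
theorem CI.hol (h : CI P p i ρ) (k : KP P ω) (hξ : ∀ a, Pure ω ρ p i (ξ a))
    (hP : ∀ a, ∑ b, P a b • ξ b = ξ a) (h0 : ∑ a, ρ a (ξ a) = 0) : Hol ω i ξ := by
  intro b
  set η := ξ b + i (∑ a, ω b a • ξ a) with hη
  have hs : Pure ω ρ p i (∑ a, ω b a • ξ a) := Pure.sum _ fun a _ => (hξ a).smul _
  have hp : Pure ω ρ p i η := (hξ b).add (h.pure_i hs)
  have e : ⟪η, η⟫_ℝ = ⟪∑ a, ρ a (ξ a), ρ b η⟫_ℝ := by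
    simp only [sum_inner, fun a => h.compress k (hξ a) hp a b, sum_sub_distrib]
    nth_rewrite 1 [hη]
    rw [inner_add_left, ← hP b, map_sum, sum_inner, sum_inner, sub_eq_add_neg, ← sum_neg_distrib]
    congr 1 <;> refine sum_congr rfl fun a _ => ?_
    · rw [real_inner_smul_left, k.symm]
    · rw [map_smul, real_inner_smul_left, k.skew b a]; ring
  rw [h0, inner_zero_left, inner_self_eq_zero] at e
  have e2 := congrArg i e
  rw [hη, map_add, h.ii _ hs.1, map_zero] at e2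
  exact (sub_eq_zero.1 (by rw [sub_eq_add_neg]; exact e2)).symm

/-- Conversely, complex linear pure valued one-forms are killed by Clifford multiplication. -/
theorem CI.cl_of_hol (h : CI P p i ρ) (k : KP P ω) (hξ : ∀ a, Pure ω ρ p i (ξ a))
    (hP : ∀ a, ∑ b, P a b • ξ b = ξ a) (hh : Hol ω i ξ) : ∑ a, ρ a (ξ a) = 0 := by
  rw [← inner_self_eq_zero (𝕜 := ℝ), inner_sum]
  refine sum_eq_zero fun b _ => ?_
  simp only [sum_inner, fun a => h.compress k (hξ a) (hξ b) a b, sum_sub_distrib]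
  have e1 : ∑ a, P a b * ⟪ξ a, ξ b⟫_ℝ = ⟪ξ b, ξ b⟫_ℝ := by
    nth_rewrite 2 [← hP b]
    rw [sum_inner]
    exact sum_congr rfl fun a _ => by rw [real_inner_smul_left, k.symm]
  have e2 : ∑ a, ω a b * ⟪i (ξ a), ξ b⟫_ℝ = ⟪ξ b, ξ b⟫_ℝ := by
    have := congrArg (fun v => ⟪i v, ξ b⟫_ℝ) (hh b)
    simp only [map_sum, map_smul, sum_inner, real_inner_smul_left, h.ii _ (hξ b).1,
      inner_neg_left] at this
    rw [← neg_neg ⟪ξ b, ξ b⟫_ℝ, ← this, ← sum_neg_distrib]
    exact sum_congr rfl fun a _ => by rw [k.skew a b]; ring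
  rw [e1, e2, sub_self]

/-- Refined Kato inequality with a weight. -/
theorem Hol.kato (hh : Hol ω i ξ) (k : KP P ω) (si : Skew i) (le : ∀ v, ‖i v‖ ≤ ‖v‖)
    (hP : ∀ a, ∑ b, P a b • ξ b = ξ a) (s : ι → ℝ) (hs : ∀ a, ∑ b, P a b * s b = s a) (v : V) :
    0 ≤ 2 * ∑ a, ⟪ξ a, ξ a⟫_ℝ + 4 * ∑ a, s a * ⟪ξ a, v⟫_ℝ + (∑ a, s a * s a) * ⟪v, v⟫_ℝ := by
  set t : ι → ℝ := fun a => ∑ b, ω a b * s b with ht
  have hr : ∀ a, ∑ b, P a b * ⟪ξ b, v⟫_ℝ = ⟪ξ a, v⟫_ℝ := fun a => by
    simp only [← real_inner_smul_left, ← sum_inner, hP]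
  have e1 : ∀ a, ⟪ξ a, i v⟫_ℝ = -∑ b, ω a b * ⟪ξ b, v⟫_ℝ := fun a => by
    simp only [← real_inner_smul_left, ← sum_inner, hh a, si (ξ a), neg_neg]
  have e2 : ∑ a, t a * ⟪ξ a, i v⟫_ℝ = -∑ a, s a * ⟪ξ a, v⟫_ℝ := by
    simp only [e1, mul_neg, sum_neg_distrib, ht, k.iso _ s hr]
  have e3 : ∑ a, t a * t a = ∑ a, s a * s a := k.iso s s hs
  have e4 : ⟪i v, i v⟫_ℝ ≤ ⟪v, v⟫_ℝ := by
    simp only [real_inner_self_eq_norm_sq]
    exact pow_le_pow_left₀ (norm_nonneg _) (le v) 2
  have e5 : ⟪v, i v⟫_ℝ = 0 := by rw [real_inner_comm, si.self]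
  have e6 : ⟪i v, v⟫_ℝ = 0 := si.self v
  have e7 : ∀ a, ⟪(2 : ℝ) • ξ a + s a • v - t a • i v, (2 : ℝ) • ξ a + s a • v - t a • i v⟫_ℝ
      = 4 * ⟪ξ a, ξ a⟫_ℝ + 4 * (s a * ⟪ξ a, v⟫_ℝ) - 4 * (t a * ⟪ξ a, i v⟫_ℝ)
        + s a * s a * ⟪v, v⟫_ℝ + t a * t a * ⟪i v, i v⟫_ℝ := fun a => by
    simp only [inner_sub_left, inner_sub_right, inner_add_left, inner_add_right,
      real_inner_smul_left, real_inner_smul_right, e5, e6, real_inner_comm (ξ a) v,
      real_inner_comm (ξ a) (i v)]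
    ring
  have e8 : 0 ≤ ∑ a, ⟪(2 : ℝ) • ξ a + s a • v - t a • i v,
      (2 : ℝ) • ξ a + s a • v - t a • i v⟫_ℝ := sum_nonneg fun a _ => real_inner_self_nonneg
  simp only [e7, sum_add_distrib, sum_sub_distrib, ← mul_sum, ← sum_mul, e2, e3] at e8
  have e9 : 0 ≤ ∑ a, s a * s a := sum_nonneg fun a _ => mul_self_nonneg _
  nlinarith [mul_le_mul_of_nonneg_left e4 e9]

/-- The spin lift of `ω` acts on pure spinors as a multiple of `i`. -/
theorem CI.spin_pure (h : CI P p i ρ) (hu : Pure ω ρ p i u) :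
    spin ρ ω u = -((∑ a, P a a) / 4) • i u := by
  have e : ∀ m, ∑ l, ω m l • ρ m (ρ l u) = -P m m • i u := fun m => by
    simp only [← map_smul (ρ m), ← map_sum (ρ m)]
    rw [hu.eq m, h.comm]
    have := congrArg (fun T : V →L[ℝ] V => T (i u)) (h.rel m m)
    simp only [add_apply, mul_apply_eq_comp,
      smul_apply, h.pi u hu.1] at this
    rw [← two_smul ℝ, show -2 * P m m = 2 * -P m m by ring, mul_smul] at this
    exact smul_right_injective V two_ne_zero this
  simp only [spin, smul_apply, _root_.sum_apply,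
    mul_apply_eq_comp, e, ← sum_smul, smul_smul, sum_neg_distrib]
  congr 1; ring

/-- In dimension four: if the spin lift of `ω` kills `ρ u`, eigenvectors are pure. -/
theorem CI.pure_of_spin (h : CI P p i ρ) (k : KP P ω) (hp : p u = u)
    (h0 : ∀ c, spin ρ ω (ρ c u) = 0) (he : spin ρ ω u = -i u) : Pure ω ρ p i u :=
  ⟨hp, fun c => by
    have := congrArg (fun T : V →L[ℝ] V => T u) (h.spin_comm k.skew k.proj' c)
    simp only [sub_apply, mul_apply_eq_comp, h0, he,
      _root_.sum_apply, smul_apply, map_neg, zero_sub,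
      neg_neg] at this
    rw [← this, h.comm]⟩

theorem CI.i_spin (h : CI P p i ρ) (ω : ι → ι → ℝ) (v : V) : i (spin ρ ω v) = spin ρ ω (i v) := by
  simp only [spin, smul_apply, _root_.sum_apply,
    mul_apply_eq_comp, map_smul, map_sum, h.comm]

theorem CI.p_spin' (h : CI P p i ρ) (ω : ι → ι → ℝ) (v : V) : p (spin ρ ω v) = spin ρ ω v :=
  congrArg (fun T : V →L[ℝ] V => T v) (h.p_spin ω)

/-- The pure part `(u + i s u) / 2` of a positive spinor. -/
def part (ω : ι → ι → ℝ) (ρ : ι → V →L[ℝ] V) (i : V →L[ℝ] V) : V →L[ℝ] V :=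
  (1 / 2 : ℝ) • (1 + i * spin ρ ω)

theorem part_add (u : V) : part ω ρ i u + part ω ρ (-i) u = u := by
  simp only [part, smul_apply, add_apply,
    mul_apply_eq_comp, one_apply_eq_self, neg_apply]
  module

/-- Splitting of positive spinors: `s = spin ρ ω` kills `ρ u`, `ρ (s u)` and `s² u = -u`. -/
theorem CI.pure_part (h : CI P p i ρ) (k : KP P ω) (hp : p u = u)
    (h0 : ∀ c, spin ρ ω (ρ c u) = 0) (h1 : ∀ c, spin ρ ω (ρ c (spin ρ ω u)) = 0)
    (h2 : spin ρ ω (spin ρ ω u) = -u) : Pure ω ρ p i (part ω ρ i u) := by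
  have e : part ω ρ i u = (1 / 2 : ℝ) • (u + i (spin ρ ω u)) := rfl
  refine h.pure_of_spin k ?_ (fun c => ?_) ?_
  · rw [e, map_smul, map_add, hp, h.pi _ (h.p_spin' ω u)]
  · rw [e, map_smul, map_add, ← h.comm, map_smul, map_add, ← h.i_spin, h0, h1]; simp
  · rw [e, map_smul, map_smul, map_add, map_add, ← h.i_spin, h2, h.ii _ (h.p_spin' ω u), map_neg]
    module

end Crest.Agent.X212.Kah60
end
end

-- ▼ part X212/Kah60/Pt
section

/-! Kaehler data in a spanning frame: pure spinors are preserved by the connection, harmonic pure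
spinors are holomorphic, Bochner-Kodaira identity, the subharmonic weight inequality. -/

open scoped Manifold ContDiff Topology InnerProductSpace
open Finset Filter

set_option linter.unusedSectionVars false

noncomputable section
namespace Crest.Agent.X212.Kah60
open Wz78 Sob92

variable {E H : Type*} [NormedAddCommGroup E] [NormedSpace ℝ E] [TopologicalSpace H]
  {I : ModelWithCorners ℝ E H} {M : Type*} [TopologicalSpace M] [ChartedSpace H M]
  {V : Type*} [NormedAddCommGroup V] [InnerProductSpace ℝ V]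
  {ι : Type*} [Fintype ι] [IsManifold I 1 M]

section defs
variable (I) (e : ι → (x : M) → TangentSpace I x)

/-- A Kaehler form: a parallel orthogonal complex structure. -/
structure Kah (P : ι → ι → M → ℝ) (Γ : ι → ι → ι → M → ℝ) (om : ι → ι → M → ℝ) : Prop where
  sm : ∀ a b x, SA I (om a b) x
  kp : ∀ x, KP (fun a b => P a b x) fun a b => om a b x
  par : ∀ c a b x, dv I (e c) (om a b) x = ∑ k, Γ c a k x * om k b x + ∑ k, Γ c b k x * om a k x

/-- A unitary connection for the complex structure `i`. -/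
structure UC (P : ι → ι → M → ℝ) (i : M → V →L[ℝ] V) (A : ι → M → V →L[ℝ] V) : Prop
    extends Con I P A where
  sA : ∀ a x, Skew (A a x)
  si : ∀ x, SA I i x
  ski : ∀ x, Skew (i x)
  le : ∀ x v, ‖i x v‖ ≤ ‖v‖
  pari : ∀ a x, dv I (e a) i x + (A a x * i x - i x * A a x) = 0

/-- Hermitian Clifford data with a compatible unitary connection. -/
structure HC (P : ι → ι → M → ℝ) (Γ : ι → ι → ι → M → ℝ) (p i : M → V →L[ℝ] V)
    (ρ A : ι → M → V →L[ℝ] V) : Prop extends CC I e P Γ p ρ A where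
  sA : ∀ a x, Skew (A a x)
  si : ∀ x, SA I i x
  ci : ∀ x, CI (fun a b => P a b x) (p x) (i x) fun a => ρ a x
  pari : ∀ a x, dv I (e a) i x + (A a x * i x - i x * A a x) = 0

end defs

/-- Pure at a point. -/
abbrev PureAt (om : ι → ι → M → ℝ) (ρ : ι → M → V →L[ℝ] V) (p i : M → V →L[ℝ] V) (x : M) (v : V) :
    Prop := Pure (fun a b => om a b x) (fun a => ρ a x) (p x) (i x) v

variable {e : ι → (x : M) → TangentSpace I x} {P om : ι → ι → M → ℝ} {g : ι → M → ℝ}
  {c Γ : ι → ι → ι → M → ℝ} {A ρ : ι → M → V →L[ℝ] V} {p i : M → V →L[ℝ] V} {u w : M → V} {x : M}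

theorem HC.uc (C : HC I e P Γ p i ρ A) : UC I e P i A where
  toCon := C.toCon
  sA := C.sA
  si := C.si
  ski x := (C.ci x).si
  le x := (C.ci x).le
  pari := C.pari

theorem UC.neg (C : UC I e P i A) : UC I e P (fun x => -i x) A where
  toCon := C.toCon
  sA := C.sA
  si x := (C.si x).neg
  ski x v w := by simp only [neg_apply, inner_neg_left, inner_neg_right, C.ski x v w]
  le x v := by simpa using C.le x v
  pari a x := by
    have h : dv I (e a) (fun x => -i x) x = -dv I (e a) i x := dv_neg i x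
    rw [h, ← neg_eq_zero, ← C.pari a x]; noncomm_ring

theorem HC.neg (C : HC I e P Γ p i ρ A) : HC I e P Γ p (fun x => -i x) ρ A where
  toCC := C.toCC
  sA := C.sA
  si := C.uc.neg.si
  ci x := (C.ci x).neg
  pari := C.uc.neg.pari

theorem Kah.neg (K : Kah I e P Γ om) : Kah I e P Γ fun a b x => -om a b x where
  sm a b x := (K.sm a b x).neg
  kp x := (K.kp x).neg
  par c a b x := by
    have h : dv I (e c) (fun x => -om a b x) x = -dv I (e c) (om a b) x := dv_neg (om a b) x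
    simp only [h, K.par, mul_neg, sum_neg_distrib]; ring

theorem nab_app1 (a : ι) {T : M → V →L[ℝ] V} (hT : SA I T x)
    (hu : MDifferentiableAt I 𝓘(ℝ, V) u x) : nab I e A a (fun y => T y (u y)) x
      = (dv I (e a) T x + (A a x * T x - T x * A a x)) (u x) + T x (nab I e A a u x) := by
  simp only [nab, dv_app hT.md hu, map_add, add_apply, sub_apply, mul_apply_eq_comp]
  abel

theorem UC.nab_i (C : UC I e P i A) (a : ι) (hu : MDifferentiableAt I 𝓘(ℝ, V) u x) :
    nab I e A a (fun y => i y (u y)) x = i x (nab I e A a u x) := by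
  rw [nab_app1 a (C.si x) hu, C.pari]; simp

/-- Covariant derivative of the relation `∑ om a b ξ b = i ξ a`. -/
theorem Kah.hol_der (K : Kah I e P Γ om) (L : LC I e P c Γ) (F : Frm I e P c) (C : UC I e P i A)
    {ξ : ι → M → V} (hs : ∀ a, MDifferentiableAt I 𝓘(ℝ, V) (ξ a) x)
    (hP : ∀ a, ∑ b, P a b x • ξ b x = ξ a x)
    (hh : ∀ᶠ y in 𝓝 x, Hol (fun a b => om a b y) (i y) fun a => ξ a y) (d : ι) :
    Hol (fun a b => om a b x) (i x) fun a => nab I e A d (ξ a) x - ∑ k, Γ d a k x • ξ k x := by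
  intro a
  have h0 := hh.self_of_nhds
  have h1 : nab I e A d (fun y => ∑ b, om a b y • ξ b y) x = i x (nab I e A d (ξ a) x) := by
    rw [← C.nab_i d (hs a)]
    exact nab_congr d (hh.mono fun y hy => hy a)
  have h2 : nab I e A d (fun y => ∑ b, om a b y • ξ b y) x
      = ∑ b, (dv I (e d) (om a b) x • ξ b x + om a b x • nab I e A d (ξ b) x) := by
    have := dv_sum (e := e d) univ (u := fun b y => om a b y • ξ b y)
      fun b _ => (K.sm a b x).md.smul (hs b)
    simp only [nab, this, fun b => dv_smul (e := e d) (K.sm a b x).md (hs b), map_sum, map_smul,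
      smul_add, sum_add_distrib]
    abel
  have h3 := F.dP_zero d x (T := fun b k => om a k x • ξ b x)
    (fun b k => by simp only [smul_comm (P b _ x), ← smul_sum, hP])
    fun b k => by
      simp only [smul_smul, ← sum_smul]
      rw [← (K.kp x).proj' a k]
      congr 1
      exact sum_congr rfl fun m _ => by rw [(F.pr x).symm k m, mul_comm]
  have h4 : ∑ b, (∑ k, Γ d a k x * om k b x) • ξ b x = i x (∑ k, Γ d a k x • ξ k x) := by
    simp only [sum_smul, map_sum, map_smul, ← h0 _, smul_sum, mul_smul]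
    exact sum_comm
  have h5 : ∑ b, om a b x • ∑ k, Γ d b k x • ξ k x = ∑ b, ∑ k, Γ d k b x • om a k x • ξ b x := by
    simp only [smul_sum]
    rw [sum_comm]
    exact sum_congr rfl fun b _ => sum_congr rfl fun k _ => smul_comm _ _ _
  simp only [L.met, add_smul, sum_add_distrib] at h3
  simp only [h2, K.par, add_smul, sum_add_distrib, h4] at h1
  simp only [smul_sub, sum_sub_distrib, map_sub, h5, ← h1, eq_neg_of_add_eq_zero_right h3,
    sum_smul, mul_smul]
  abel

/-- The covariant derivative of a pure section is pure. -/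
theorem Kah.pure_nab1 (K : Kah I e P Γ om) (L : LC I e P c Γ) (F : Frm I e P c)
    (C : HC I e P Γ p i ρ A) (hu : MDifferentiableAt I 𝓘(ℝ, V) u x)
    (hp : ∀ᶠ y in 𝓝 x, PureAt om ρ p i y (u y)) (d : ι) :
    PureAt om ρ p i x (nab I e A d u x) := by
  refine ⟨?_, ?_⟩
  · have := nab_app1 (e := e) (A := A) d (C.sp x) hu
    rw [C.par, nab_congr (v := u) d (hp.mono fun y hy => hy.1)] at this
    simpa using this.symm
  · have := K.hol_der L F C.uc (ξ := fun a y => ρ a y (u y))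
      (fun a => (C.sρ a x).md.clm_apply hu) (fun a => (C.ci x).projρ a _)
      (hp.mono fun y hy => hy.2) d
    simpa only [nab_app1 d (C.sρ _ x) hu, C.comp, _root_.sum_apply, smul_apply,
      add_sub_cancel_left] using this

theorem Kah.pure_nab (K : Kah I e P Γ om) (L : LC I e P c Γ) (F : Frm I e P c)
    (C : HC I e P Γ p i ρ A) (hu : SA I u x) (hp : ∀ᶠ y in 𝓝 x, PureAt om ρ p i y (u y)) (d : ι) :
    ∀ᶠ y in 𝓝 x, PureAt om ρ p i y (nab I e A d u y) := by
  filter_upwards [hu.ev, hp.eventually_nhds] with y h1 h2 using K.pure_nab1 L F C h1 h2 d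

theorem Kah.pure_lap (K : Kah I e P Γ om) (L : LC I e P c Γ) (F : Frm I e P c)
    (C : HC I e P Γ p i ρ A) (hu : SA I u x) (hp : ∀ᶠ y in 𝓝 x, PureAt om ρ p i y (u y)) :
    PureAt om ρ p i x (lap I e g A u x) :=
  (Pure.sum _ fun a _ => (K.pure_nab1 L F C (F.sN (fun a => C.sm a x) a hu).md
    (K.pure_nab L F C hu hp a) a).add ((K.pure_nab L F C hu hp a).self_of_nhds.smul _)).neg

/-- Harmonic pure spinors are holomorphic. -/
theorem Kah.hol_nab (K : Kah I e P Γ om) (L : LC I e P c Γ) (F : Frm I e P c)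
    (C : HC I e P Γ p i ρ A) (hu : MDifferentiableAt I 𝓘(ℝ, V) u x)
    (hp : ∀ᶠ y in 𝓝 x, PureAt om ρ p i y (u y)) (hD : dir I e ρ A u x = 0) :
    Hol (fun a b => om a b x) (i x) fun a => nab I e A a u x :=
  (C.ci x).hol (K.kp x) (K.pure_nab1 L F C hu hp) (fun a => F.projN C.toCon a u x) hD

theorem Kah.dir_zero (K : Kah I e P Γ om) (L : LC I e P c Γ) (F : Frm I e P c)
    (C : HC I e P Γ p i ρ A) (hu : MDifferentiableAt I 𝓘(ℝ, V) u x)
    (hp : ∀ᶠ y in 𝓝 x, PureAt om ρ p i y (u y))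
    (hh : Hol (fun a b => om a b x) (i x) fun a => nab I e A a u x) : dir I e ρ A u x = 0 :=
  (C.ci x).cl_of_hol (K.kp x) (K.pure_nab1 L F C hu hp) (fun a => F.projN C.toCon a u x) hh

variable (I e) in
/-- Contraction of the curvature with the Kaehler form. -/
def lam (c : ι → ι → ι → M → ℝ) (om : ι → ι → M → ℝ) (A : ι → M → V →L[ℝ] V) : M → V →L[ℝ] V :=
  fun x => (1 / 2 : ℝ) • ∑ a, ∑ b, om a b x • curv I e c A a b x

/-- Bochner-Kodaira identity for holomorphic sections: `i ∇^*∇ u = -Λ F u`. -/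
theorem Kah.kodaira (K : Kah I e P Γ om) (L : LC I e P c Γ) (F : Frm I e P c) (C : UC I e P i A)
    (hg : ∀ k, g k x = ∑ a, Γ a k a x) (hu : SA I u x)
    (hh : ∀ᶠ y in 𝓝 x, Hol (fun a b => om a b y) (i y) fun a => nab I e A a u y) :
    i x (lap I e g A u x) = -lam I e c om A x (u x) := by
  have h1 := fun d => K.hol_der L F C (ξ := fun a => nab I e A a u)
    (fun a => (F.sN (fun a => C.sm a x) a hu).md) (fun a => F.projN C.toCon a u x) hh d d
  have h2 : ∑ a, ∑ b, om a b x • hess I e Γ A b a u x = -∑ a, ∑ b, om a b x • hess I e Γ A a b u x := by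
    rw [sum_comm]
    simp only [← sum_neg_distrib]
    exact sum_congr rfl fun a _ => sum_congr rfl fun b _ => by rw [(K.kp x).skew b a, neg_smul]
  have h3 : ∀ d, i x (hess I e Γ A d d u x) = ∑ b, om d b x • hess I e Γ A d b u x :=
    fun d => (h1 d).symm
  simp only [L.lap_eq F C.toCon hg, map_neg, map_sum, h3, lam, smul_apply, _root_.sum_apply,
    ← L.hess_skew F C.toCon _ _ hu, smul_sub, sum_sub_distrib, h2]
  module

/-- On pure spinors the Weitzenboeck term is `i Λ F` up to the other type. -/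
theorem Kah.inner_wK (K : Kah I e P Γ om) (C : HC I e P Γ p i ρ A) {v v' : V}
    (hc : ∀ a b, curv I e c A a b x = -curv I e c A b a x)
    (hv : ∀ a b, PureAt om ρ p i x (curv I e c A a b x v)) (hv' : PureAt om ρ p i x v') :
    ⟪wK I e c ρ A x v, v'⟫_ℝ = -⟪i x (lam I e c om A x v), v'⟫_ℝ := by
  have h1 : ∀ a b, ⟪ρ a x (ρ b x (curv I e c A a b x v)), v'⟫_ℝ
      = -(P b a x * ⟪curv I e c A a b x v, v'⟫_ℝ) - om a b x * ⟪i x (curv I e c A a b x v), v'⟫_ℝ :=
    fun a b => by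
      rw [(C.ci x).sρ a, (C.ci x).compress (K.kp x) (hv a b) hv' b a, (K.kp x).skew a b]; ring
  have h2 : ∑ a, ∑ b, P b a x * ⟪curv I e c A a b x v, v'⟫_ℝ = 0 := by
    have : ∑ a, ∑ b, P b a x * ⟪curv I e c A a b x v, v'⟫_ℝ
        = -∑ a, ∑ b, P b a x * ⟪curv I e c A a b x v, v'⟫_ℝ := by
      conv_lhs => rw [sum_comm]
      simp only [← sum_neg_distrib]
      exact sum_congr rfl fun a _ => sum_congr rfl fun b _ => by
        rw [hc b a, (K.kp x).symm a b, neg_apply, inner_neg_left, mul_neg]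
    linarith
  simp only [wK, lam, smul_apply, _root_.sum_apply, mul_apply_eq_comp, real_inner_smul_left,
    sum_inner, h1, map_smul, map_sum, sum_sub_distrib, sum_neg_distrib, h2]
  ring

theorem lap0_mul (F : Frm I e P c) {f h : M → ℝ} (hf : SA I f x) (hh : SA I h x) :
    lap0 I e g (fun y => f y * h y) x = f x * lap0 I e g h x + h x * lap0 I e g f x
      - 2 * ∑ a, dv I (e a) f x * dv I (e a) h x := by
  have h1 : ∀ a, dv I (e a) (fun y => f y * h y)
      =ᶠ[𝓝 x] fun y => dv I (e a) f y * h y + f y * dv I (e a) h y := fun a => by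
    filter_upwards [hf.ev, hh.ev] with y h1 h2
      using dv_bil (ContinuousLinearMap.mul ℝ ℝ) h1 h2
  simp only [lap0, dvg, fun a => dv_congr (e := e a) (h1 a), fun a => (h1 a).self_of_nhds,
    fun a => dv_add' (e := e a) ((F.sD a hf).mul hh) (hf.mul (F.sD a hh)),
    fun a => dv_mul (e := e a) (F.sD a hf) hh, fun a => dv_mul (e := e a) hf (F.sD a hh),
    mul_neg, mul_sum, ← sum_neg_distrib, ← sum_add_distrib, ← sum_sub_distrib]
  exact sum_congr rfl fun a _ => by ring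

theorem dv_exp {v : (x : M) → TangentSpace I x} {f : M → ℝ}
    (hf : MDifferentiableAt I 𝓘(ℝ, ℝ) f x) :
    dv I v (fun y => Real.exp (f y)) x = Real.exp (f x) * dv I v f x := by
  rw [dv_comp hf (Real.hasDerivAt_exp (f x)).hasFDerivAt]
  simp [mul_comm]

theorem sa_exp {f : M → ℝ} (hf : SA I f x) : SA I (fun y => Real.exp (f y)) x :=
  Real.contDiff_exp.contMDiff.contMDiffAt.comp x hf

theorem lap0_exp (F : Frm I e P c) {f : M → ℝ} (hf : SA I f x) :
    lap0 I e g (fun y => Real.exp (f y)) x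
      = Real.exp (f x) * (lap0 I e g f x - ∑ a, dv I (e a) f x * dv I (e a) f x) := by
  have h1 : ∀ a, dv I (e a) (fun y => Real.exp (f y))
      =ᶠ[𝓝 x] fun y => Real.exp (f y) * dv I (e a) f y := fun a => by
    filter_upwards [hf.ev] with y h1 using dv_exp h1
  simp only [lap0, dvg, fun a => dv_congr (e := e a) (h1 a), fun a => (h1 a).self_of_nhds,
    fun a => dv_mul (e := e a) (sa_exp hf) (F.sD a hf), dv_exp hf.md,
    mul_sum, ← sum_neg_distrib, ← sum_sub_distrib]
  exact sum_congr rfl fun a _ => by ring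

/-- The weighted norm of a holomorphic section is a subsolution. -/
theorem Kah.sub (k : KP (fun a b => P a b x) fun a b => om a b x) (F : Frm I e P c)
    (C : UC I e P i A) (hu : SA I u x)
    (hh : Hol (fun a b => om a b x) (i x) fun a => nab I e A a u x) {ψ : M → ℝ} (hψ : SA I ψ x)
    {κ : ℝ} (hκ : ⟪lap I e g A u x, u x⟫_ℝ ≤ -κ * ⟪u x, u x⟫_ℝ) :
    lap0 I e g (fun y => Real.exp (ψ y) * ⟪u y, u y⟫_ℝ) x
      ≤ (lap0 I e g ψ x - 2 * κ) * (Real.exp (ψ x) * ⟪u x, u x⟫_ℝ) := by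
  have h1 := hh.kato k (C.ski x) (C.le x) (fun a => F.projN C.toCon a u x)
    (fun a => dv I (e a) ψ x) (fun a => F.projD a ψ x) (u x)
  rw [lap0_mul F (sa_exp hψ) (hu.inner hu), lap0_exp F hψ, F.lap0_inner (fun a => C.sm a x)
    (fun a => Eventually.of_forall (C.sA a)) hu hu, real_inner_comm (lap I e g A u x)]
  simp only [dv_exp hψ.md, fun a => dv_inner (e := e) a (C.sA a x) hu hu,
    real_inner_comm (nab I e A _ u x) (u x)]
  have h2 : ∑ a, Real.exp (ψ x) * dv I (e a) ψ x * (⟪nab I e A a u x, u x⟫_ℝ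
      + ⟪nab I e A a u x, u x⟫_ℝ)
      = Real.exp (ψ x) * (2 * ∑ a, dv I (e a) ψ x * ⟪nab I e A a u x, u x⟫_ℝ) := by
    simp only [mul_sum]
    exact sum_congr rfl fun a _ => by ring
  rw [h2]
  have h3 := Real.exp_pos (ψ x)
  nlinarith [mul_le_mul_of_nonneg_left hκ h3.le, mul_nonneg h3.le h1]

end Crest.Agent.X212.Kah60
end
end

-- ▼ part X212/Kah60/Cut

/-! Cut-off functions of small capacity: subsolutions are locally constant. -/

open scoped Manifold ContDiff Topology InnerProductSpace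
open Finset Filter MeasureTheory Set

set_option linter.unusedSectionVars false

noncomputable section
namespace Crest.Agent.X212.Kah60
open Wz78 Sob92 An

variable {E : Type} [NormedAddCommGroup E] [NormedSpace ℝ E] [FiniteDimensional ℝ E]
  [MeasurableSpace E] [BorelSpace E]
  {HM : Type} [TopologicalSpace HM] {I : ModelWithCorners ℝ E HM}
  {M : Type} [TopologicalSpace M] [ChartedSpace HM M] [IsManifold I ∞ M]
  [MeasurableSpace M] {ι : Type} [Fintype ι]
  {N : Type} [NormedAddCommGroup N] [NormedSpace ℝ N]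

variable (I) in
/-- Cut-off functions exhausting the set `U`. -/
structure Cut (U : Set M) (χ : ℕ → M → ℝ) : Prop where
  sm : ∀ n, Sm I (χ n)
  hcs : ∀ n, HasCompactSupport (χ n)
  supp : ∀ n, tsupport (χ n) ⊆ U
  one : ∀ x ∈ U, ∃ O ∈ 𝓝 x, ∀ᶠ n in atTop, ∀ y ∈ O, χ n y = 1

/-- The squared gradient. -/
def gr2 (F : Pre I M ι) (f : M → ℝ) : M → ℝ := fun x => ∑ a, F.D a f x * F.D a f x

/-- The cut-offs have small capacity against the weight `f`. -/
def Small (F : Pre I M ι) (χ : ℕ → M → ℝ) (f : M → ℝ) : Prop :=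
  Tendsto (fun n => ∫ x, gr2 F (χ n) x * f x ∂F.μ) atTop (𝓝 0)

theorem gr2_nonneg (F : Pre I M ι) (f : M → ℝ) (x : M) : 0 ≤ gr2 F f x :=
  sum_nonneg fun _ _ => mul_self_nonneg _

theorem sm_gr2 (F : Pre I M ι) {f : M → ℝ} (hf : Sm I f) : Sm I (gr2 F f) := fun x =>
  SA.sum _ fun a _ => SA.mul (F.sm_D hf a x) (F.sm_D hf a x)

theorem gr2_zero (F : Pre I M ι) {f : M → ℝ} {x : M} (hx : x ∉ tsupport f) : gr2 F f x = 0 :=
  sum_eq_zero fun a _ => by rw [F.D_def, dv_eq_zero_of_notMem hx, mul_zero]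

theorem tsupport_gr2 (F : Pre I M ι) (f : M → ℝ) : tsupport (gr2 F f) ⊆ tsupport f :=
  closure_minimal (fun _ hx => by_contra fun h => hx (gr2_zero F h)) (isClosed_tsupport f)

theorem Cut.univ [CompactSpace M] : Cut I (univ : Set M) fun _ _ => 1 where
  sm _ := contMDiff_const
  hcs _ := HasCompactSupport.of_compactSpace _
  supp _ := subset_univ _
  one _ _ := ⟨_, univ_mem, Eventually.of_forall fun _ _ _ => rfl⟩

theorem Small.univ (F : Pre I M ι) (f : M → ℝ) : Small F (fun _ _ => 1) f := by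
  simp [Small, gr2, Pre.D_def]

theorem sm_cut {U : Set M} {χ : M → ℝ} (hχ : Sm I χ) (hU : tsupport χ ⊆ U) {f : M → N}
    (hf : ∀ x ∈ U, SA I f x) : Sm I fun x => χ x • f x := fun x => by
  by_cases hx : x ∈ tsupport χ
  · exact SA.smul (hχ x) (hf x (hU hx))
  · refine (contMDiffAt_const (c := (0 : N))).congr_of_eventuallyEq ?_
    filter_upwards [notMem_tsupport_iff_eventuallyEq.1 hx] with y hy
    simp [hy]

theorem tsupport_cut (χ : M → ℝ) (f : M → N) : tsupport (fun x => χ x • f x) ⊆ tsupport χ :=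
  closure_mono fun x hx h => hx (by simp [h])

theorem hcs_of_sub {χ : M → ℝ} (hc : HasCompactSupport χ) {f : M → N}
    (h : tsupport f ⊆ tsupport χ) : HasCompactSupport f :=
  hc.of_isClosed_subset (isClosed_tsupport _) h

variable [T2Space M] [BorelSpace M]

/-- Bounded weights are small against cut-offs of vanishing capacity. -/
theorem Small.of_le {F : Pre I M ι} {U : Set M} {χ : ℕ → M → ℝ} (hχ : Cut I U χ) {f g : M → ℝ}
    (hg : Small F χ g) (sf : ∀ x ∈ U, SA I f x) (sg : ∀ x ∈ U, SA I g x) {C : ℝ}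
    (h0 : ∀ x ∈ U, 0 ≤ f x) (h : ∀ x ∈ U, f x ≤ C * g x) : Small F χ f := by
  have hs := fun n => (tsupport_gr2 F (χ n)).trans (hχ.supp n)
  have hi : ∀ n {f : M → ℝ}, (∀ x ∈ U, SA I f x) → Integrable (fun x => gr2 F (χ n) x * f x) F.μ :=
    fun n f sf => (sm_cut (sm_gr2 F (hχ.sm n)) (hs n) sf).continuous.integrable_of_hasCompactSupport
      (hcs_of_sub (hχ.hcs n) ((tsupport_cut _ _).trans (tsupport_gr2 F _)))
  have hz : ∀ n x, x ∉ U → gr2 F (χ n) x = 0 := fun n x hx => gr2_zero F fun h => hx (hχ.supp n h)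
  have := hg.const_mul C
  rw [mul_zero] at this
  refine squeeze_zero (fun n => integral_nonneg fun x => ?_) (fun n => ?_) this
  · by_cases hx : x ∈ U
    · exact mul_nonneg (gr2_nonneg F _ x) (h0 x hx)
    · simp [hz n x hx]
  · rw [← integral_const_mul]
    refine integral_mono (hi n sf) ((hi n sg).const_mul C) fun x => ?_
    by_cases hx : x ∈ U
    · have := mul_le_mul_of_nonneg_left (h x hx) (gr2_nonneg F (χ n) x)
      simp only; linarith
    · simp [hz n x hx]

/-- Nonnegative functions with vanishing integrals that stabilise near `x` vanish at `x`. -/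
theorem zero_of_tendsto {μ : Measure M} [μ.IsOpenPosMeasure] [IsFiniteMeasureOnCompacts μ]
    {G : ℕ → M → ℝ} (hG : ∀ n, Continuous (G n)) (hc : ∀ n, HasCompactSupport (G n))
    (h0 : ∀ n x, 0 ≤ G n x) {b : ℕ → ℝ} (hb : Tendsto b atTop (𝓝 0))
    (hle : ∀ n, ∫ x, G n x ∂μ ≤ b n) {g : M → ℝ} {x : M} {O : Set M} (hO : O ∈ 𝓝 x)
    (he : ∀ᶠ n in atTop, ∀ y ∈ O, G n y = g y) : g x = 0 := by
  obtain ⟨O', h1, h2, h3⟩ := mem_nhds_iff.1 hO
  obtain ⟨m, hm⟩ := he.exists
  have hi := fun n => (hG n).integrable_of_hasCompactSupport (μ := μ) (hc n)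
  have h4 : ∫ y in O', G m y ∂μ ≤ 0 := by
    refine ge_of_tendsto hb (he.mono fun n hn => le_trans ?_ (hle n))
    rw [setIntegral_congr_fun h2.measurableSet (g := G n) fun y hy => by
      rw [hm y (h1 hy), hn y (h1 hy)]]
    exact setIntegral_le_integral (hi n) (Eventually.of_forall (h0 n))
  by_contra h
  refine absurd h4 (not_le.2 ((setIntegral_pos_iff_support_of_nonneg_ae
    (Eventually.of_forall (h0 m)) (hi m).integrableOn).2 ?_))
  exact ((hG m).isOpen_support.inter h2).measure_pos μ ⟨x, by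
    simpa [hm x (h1 h3)] using h, h3⟩

variable {F : Fr I M ι} [F.μ.IsOpenPosMeasure] {U : Set M} {χ : ℕ → M → ℝ}

/-- A nonnegative subsolution that is small against the cut-offs has vanishing gradient. -/
theorem sub_zero (hχ : Cut I U χ) {h δ : M → ℝ} (sh : ∀ x ∈ U, SA I h x) (sδ : ∀ x ∈ U, SA I δ x)
    (h0 : ∀ x ∈ U, 0 ≤ h x) (δ0 : ∀ x ∈ U, 0 ≤ δ x)
    (hl : ∀ x ∈ U, lap0 I F.e F.dv h x ≤ -δ x * h x) (hs : Small F.toPre χ fun x => h x * h x)
    {x : M} (hx : x ∈ U) : δ x * h x = 0 ∧ ∀ a, F.D a h x = 0 := by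
  have fr := frm F
  have sw : ∀ n, Sm I fun y => χ n y * h y := fun n => sm_cut (hχ.sm n) (hχ.supp n) sh
  have tw : ∀ n, tsupport (fun y => χ n y * h y) ⊆ tsupport (χ n) := fun n => tsupport_cut _ _
  set G : ℕ → M → ℝ := fun n y => gr2 F.toPre (fun y => χ n y * h y) y
    + χ n y * (χ n y * (δ y * (h y * h y))) with hG
  set f : ℕ → ι → M → ℝ := fun n a y => χ n y * (χ n y * (h y * F.D a h y)) with hf
  have s2 : ∀ n, Sm I fun y => χ n y * (χ n y * (δ y * (h y * h y))) := fun n =>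
    sm_cut (hχ.sm n) (hχ.supp n) fun y hy =>
      SA.mul (hχ.sm n y) ((sδ y hy).mul ((sh y hy).mul (sh y hy)))
  have sG : ∀ n, Sm I (G n) := fun n => (sm_gr2 _ (sw n)).add (s2 n)
  have cG : ∀ n, HasCompactSupport (G n) := fun n =>
    (hcs_of_sub (hχ.hcs n) ((tsupport_gr2 _ _).trans (tw n))).add (hχ.hcs n).mul_right
  have sf : ∀ n a, Sm I (f n a) := fun n a => sm_cut (hχ.sm n) (hχ.supp n) fun y hy =>
    SA.mul (hχ.sm n y) ((sh y hy).mul (fr.sD a (sh y hy)))
  have cf : ∀ n a, HasCompactSupport (f n a) := fun n a => (hχ.hcs n).mul_right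
  have s3 : ∀ n, Sm I fun y => gr2 F.toPre (χ n) y * (h y * h y) := fun n =>
    sm_cut (sm_gr2 _ (hχ.sm n)) ((tsupport_gr2 _ _).trans (hχ.supp n)) fun y hy =>
      (sh y hy).mul (sh y hy)
  have c3 : ∀ n, HasCompactSupport fun y => gr2 F.toPre (χ n) y * (h y * h y) := fun n =>
    (hcs_of_sub (hχ.hcs n) (tsupport_gr2 _ _)).mul_right
  have z : ∀ n y, y ∉ U → χ n y = 0 := fun n y hy =>
    image_eq_zero_of_notMem_tsupport fun h => hy (hχ.supp n h)
  have G0 : ∀ n y, 0 ≤ G n y := fun n y => add_nonneg (gr2_nonneg _ _ _) (by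
    by_cases hy : y ∈ U
    · rw [← mul_assoc]
      exact mul_nonneg (mul_self_nonneg _) (mul_nonneg (δ0 y hy) (mul_self_nonneg _))
    · simp [z n y hy])
  have key : ∀ n y, G n y ≤ gr2 F.toPre (χ n) y * (h y * h y) + dvg I F.e F.dv (f n) y := by
    intro n y
    by_cases hy : y ∈ tsupport (χ n)
    · have hU := hχ.supp n hy
      have h1 := mul_le_mul_of_nonneg_left (hl y hU)
        (mul_nonneg (mul_self_nonneg (χ n y)) (h0 y hU))
      have e1 : ∀ a, dv I (F.e a) (f n a) y = 2 * χ n y * h y * (F.D a (χ n) y * F.D a h y)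
          + χ n y * χ n y * (F.D a h y * F.D a h y)
          + χ n y * χ n y * h y * dv I (F.e a) (dv I (F.e a) h) y := fun a => by
        simp only [hf, Pre.D_def]
        rw [dv_mul (hχ.sm n y) (SA.mul (hχ.sm n y) ((sh y hU).mul (fr.sD a (sh y hU)))),
          dv_mul (hχ.sm n y) ((sh y hU).mul (fr.sD a (sh y hU))),
          dv_mul (sh y hU) (fr.sD a (sh y hU))]
        ring
      have e2 : ∀ a, F.D a (fun y => χ n y * h y) y = F.D a (χ n) y * h y + χ n y * F.D a h y :=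
        fun a => dv_mul (hχ.sm n y) (sh y hU)
      have e3 : G n y - (gr2 F.toPre (χ n) y * (h y * h y) + dvg I F.e F.dv (f n) y)
          = χ n y * χ n y * h y * lap0 I F.e F.dv h y - χ n y * χ n y * h y * (-δ y * h y) := by
        simp only [hG, gr2, e2, dvg, lap0, e1]
        simp only [hf, Pre.D_def, mul_neg, mul_sum, sum_mul]
        rw [add_sub_right_comm, ← sum_add_distrib, ← sum_sub_distrib, ← sum_neg_distrib]
        congr 1
        · exact sum_congr rfl fun a _ => by ring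
        · ring
      linarith
    · have e1 : ∀ a, dv I (F.e a) (f n a) y = 0 := fun a =>
        dv_eq_zero_of_notMem fun h => hy (tsupport_cut _ _ h)
      simp only [dvg, e1]
      simp [hG, hf, gr2_zero _ hy, gr2_zero _ fun h => hy (tw n h),
        image_eq_zero_of_notMem_tsupport hy]
  obtain ⟨O, hO, he⟩ := hχ.one x hx
  have := zero_of_tendsto (μ := F.μ) (fun n => (sG n).continuous) cG G0 hs (fun n => by
      refine (integral_mono (integ (sG n) (cG n)) ((integ (s3 n) (c3 n)).add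
        (integ_dvg (sf n) (cf n))) (key n)).trans ?_
      rw [integral_add' (integ (s3 n) (c3 n)) (integ_dvg (sf n) (cf n)),
        integral_dvg (sf n) (cf n), add_zero])
    (g := fun y => gr2 F.toPre h y + δ y * (h y * h y)) (interior_mem_nhds.2 hO)
    (he.mono fun n hn y hy => by
      have h1 : (fun y => χ n y * h y) =ᶠ[𝓝 y] h := by
        filter_upwards [isOpen_interior.mem_nhds hy] with z hz
        rw [hn z (interior_subset hz), one_mul]
      simp only [hG, gr2, Pre.D_def, dv_congr h1, hn y (interior_subset hy), one_mul])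
  have h1 := gr2_nonneg F.toPre h x
  have h2 := mul_nonneg (δ0 x hx) (mul_self_nonneg (h x))
  refine ⟨?_, fun a => mul_self_eq_zero.1 ((sum_eq_zero_iff_of_nonneg
    fun a _ => mul_self_nonneg _).1 (show gr2 F.toPre h x = 0 by linarith) a (mem_univ a))⟩
  have h3 : δ x * h x * h x = 0 := by rw [mul_assoc]; linarith
  rcases mul_eq_zero.1 h3 with h4 | h4
  · exact h4
  · rw [h4, mul_zero]

omit [T2Space M] [BorelSpace M] in
/-- Functions killed by a spanning frame are locally constant. -/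
theorem ev_const [I.Boundaryless] (F : Pre I M ι) {h : M → N} {x : M}
    (hd : ∀ᶠ y in 𝓝 x, MDifferentiableAt I 𝓘(ℝ, N) h y ∧ ∀ a, F.D a h y = 0) :
    ∀ᶠ y in 𝓝 x, h y = h x := by
  have h1 : ∀ᶠ z in 𝓝 (extChartAt I x x),
      HasFDerivAt (h ∘ (extChartAt I x).symm) (0 : E →L[ℝ] N) z := by
    have h2 := (continuousAt_extChartAt_symm (I := I) x).eventually
      (by rw [extChartAt_to_inv]; exact hd)
    filter_upwards [h2, extChartAt_target_mem_nhds (I := I) x] with z hz hz'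
    have h3 : mfderiv I 𝓘(ℝ, N) h ((extChartAt I x).symm z) = 0 := by
      refine ContinuousLinearMap.coe_injective (LinearMap.ext_on (F.span _) ?_)
      rintro _ ⟨a, rfl⟩
      exact hz.2 a
    have h4 := hz.1.hasMFDerivAt
    rw [h3] at h4
    have h5 : MDifferentiableAt 𝓘(ℝ, E) I (extChartAt I x).symm z :=
      ((contMDiffOn_extChartAt_symm (n := 1) x).contMDiffAt
        ((isOpen_extChartAt_target x).mem_nhds hz')).mdifferentiableAt (by simp)
    have h6 := (h4.comp z h5.hasMFDerivAt).hasFDerivAt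
    rw [ContinuousLinearMap.zero_comp] at h6
    exact h6
  obtain ⟨r, hr, hb⟩ := Metric.eventually_nhds_iff_ball.1 h1
  have h2 : ∀ z ∈ Metric.ball (extChartAt I x x) r, h ((extChartAt I x).symm z) = h x := by
    intro z hz
    have := Metric.isOpen_ball.is_const_of_fderiv_eq_zero (𝕜 := ℝ) (convex_ball _ _).isPreconnected
      (f := h ∘ (extChartAt I x).symm)
      (fun z hz => (hb z hz).differentiableAt.differentiableWithinAt)
      (fun z hz => (hb z hz).fderiv) hz (Metric.mem_ball_self hr)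
    simpa using this
  filter_upwards [(continuousAt_extChartAt (I := I) x).eventually (Metric.ball_mem_nhds _ hr),
    extChartAt_source_mem_nhds (I := I) x] with y h3 h4
  rw [← h2 _ h3, (extChartAt I x).left_inv h4]

omit [T2Space M] [BorelSpace M] in
theorem const_on [I.Boundaryless] (F : Pre I M ι) {h : M → N} (hU : IsOpen U)
    (hc : IsPreconnected U) (hd : ∀ y ∈ U, MDifferentiableAt I 𝓘(ℝ, N) h y ∧ ∀ a, F.D a h y = 0)
    {x y : M} (hx : x ∈ U) (hy : y ∈ U) : h x = h y := by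
  have h1 : ∀ z ∈ U, ∀ᶠ w in 𝓝 z, h w = h z := fun z hz =>
    ev_const F ((hU.eventually_mem hz).mono hd)
  have : PreconnectedSpace U := Subtype.preconnectedSpace hc
  exact ((IsLocallyConstant.iff_eventually_eq fun z : U => h z).2 fun z =>
    continuousAt_subtype_val.eventually (h1 z z.2)).apply_eq_of_preconnectedSpace ⟨x, hx⟩ ⟨y, hy⟩

/-- A subsolution as above vanishes if `δ` is positive somewhere or its infimum is zero. -/
theorem sub_zero' [I.Boundaryless] (hχ : Cut I U χ) (hU : IsOpen U) (hc : IsPreconnected U)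
    {h δ : M → ℝ} (sh : ∀ x ∈ U, SA I h x) (sδ : ∀ x ∈ U, SA I δ x)
    (h0 : ∀ x ∈ U, 0 ≤ h x) (δ0 : ∀ x ∈ U, 0 ≤ δ x)
    (hl : ∀ x ∈ U, lap0 I F.e F.dv h x ≤ -δ x * h x) (hs : Small F.toPre χ fun x => h x * h x)
    (hz : (∃ x ∈ U, δ x ≠ 0) ∨ ∀ ε > 0, ∃ x ∈ U, h x < ε) {x : M} (hx : x ∈ U) : h x = 0 := by
  have h1 := fun y hy => sub_zero hχ sh sδ h0 δ0 hl hs (x := y) hy
  have h2 : ∀ y ∈ U, h x = h y := fun y hy =>
    const_on F.toPre hU hc (fun y hy => ⟨(sh y hy).md, (h1 y hy).2⟩) hx hy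
  rcases hz with ⟨y, hy, h3⟩ | h3
  · rw [h2 y hy]; exact (mul_eq_zero.1 (h1 y hy).1).resolve_left h3
  · refine le_antisymm (le_of_forall_pos_le_add fun ε hε => ?_) (h0 x hx)
    obtain ⟨y, hy, h4⟩ := h3 ε hε
    rw [h2 y hy]; linarith

end Crest.Agent.X212.Kah60
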